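import Vale.Agent.P314.Diff
import Mathlib.LinearAlgebra.Matrix.ToLinearEquiv
import Mathlib.LinearAlgebra.Dimension.Free
import Mathlib.LinearAlgebra.FiniteDimensional.Defs

/-! The abstract nonvanishing theorem. -/

open Polynomial Finset Module

namespace Vale.Agent.P314

variable {F L V : Type*} [Field F] [Field L] [Algebra F L] [AddCommGroup V] [Module F V] {n : ℕ}

/-- `sc` as a linear map over the small field -/
noncomputable def scL (F : Type*) [Field F] [Algebra F L] (c : L) : L[X] →ₗ[F] L[X] where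
  toFun := sc c
  map_add' := map_add _
  map_smul' r p := by ext k; simp [coeff_sc]

/-- the twisted transition operator -/
noncomputable def tau (w : L) (D : Fin n → V →ₗ[F] V) (U : V →ₗ[F] L[X]) : V →ₗ[F] L[X] :=
  scL F (w ^ (n + 1))⁻¹ ∘ₗ (Dl w n • U + ∑ i, Dli w i • (U ∘ₗ D i))

lemma tau_apply (w : L) (D : Fin n → V →ₗ[F] V) (U : V →ₗ[F] L[X]) (h : V) :
    tau w D U h = sc (w ^ (n + 1))⁻¹ (Dl w n * U h + ∑ i, Dli w i * U (D i h)) := by
  simp [tau, scL]

lemma sc_tau {w : L} (hw0 : w ≠ 0) (D : Fin n → V →ₗ[F] V) (U : V →ₗ[F] L[X]) (h : V) :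
    sc (w ^ (n + 1)) (tau w D U h) = Dl w n * U h + ∑ i, Dli w i * U (D i h) := by
  rw [tau_apply, sc_sc, mul_inv_cancel₀ (pow_ne_zero _ hw0), sc_one]

variable {w : L} {D : Fin n → V →ₗ[F] V} {f : V}

lemma inv_zero [Module.Finite F V] (hw0 : w ≠ 0) (hw : Function.Injective fun m : ℤ => w ^ m)
    (hind : ∀ P : V → Prop, P 0 → (∀ v, (∀ i, P (D i v)) → P v) → ∀ v, P v)
    (hreach : ∀ A : Submodule F V, f ∈ A → (∀ i, ∀ v ∈ A, D i v ∈ A) → A = ⊤)
    (W : Set (V →ₗ[F] L[X])) (hW : ∀ U ∈ W, tau w D U ∈ W)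
    (hl : ∀ U ∈ W, ∀ U' ∈ W, ∀ b c : L[X], b • U - c • U' ∈ W) (hf : ∀ U ∈ W, U f = 0) :
    ∀ U ∈ W, U = 0 := by
  intro U₀ h₀
  by_contra hU₀
  obtain ⟨A, ⟨hA, U, hU, U0, hAU⟩, hmax⟩ := (wellFounded_gt (α := Submodule F V)).has_min
    {A | (∀ i, ∀ v ∈ A, D i v ∈ A) ∧ ∃ U ∈ W, U ≠ 0 ∧ ∀ v ∈ A, U v = 0}
    ⟨⊥, by simp, U₀, h₀, hU₀, by simp⟩
  obtain ⟨v, hv, hDv⟩ : ∃ v, v ∉ A ∧ ∀ i, D i v ∈ A := by
    by_contra hc
    push Not at hc
    refine U0 (LinearMap.ext fun v => hAU v (hind (· ∈ A) A.zero_mem (fun v h => ?_) v))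
    by_contra hv
    obtain ⟨i, hi⟩ := hc v hv
    exact hi (h i)
  have key : ∀ U' ∈ W, (∀ a ∈ A, U' a = 0) → U' v = 0 → U' = 0 := by
    intro U' h1 h2 h3
    by_contra h4
    refine hmax (A ⊔ F ∙ v) ⟨fun i x hx => ?_, U', h1, h4, fun x hx => ?_⟩ ?_
    · obtain ⟨a, ha, y, hy, rfl⟩ := Submodule.mem_sup.1 hx
      obtain ⟨c, rfl⟩ := Submodule.mem_span_singleton.1 hy
      rw [map_add, map_smul]
      exact Submodule.mem_sup_left (A.add_mem (hA i a ha) (A.smul_mem c (hDv i)))
    · obtain ⟨a, ha, y, hy, rfl⟩ := Submodule.mem_sup.1 hx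
      obtain ⟨c, rfl⟩ := Submodule.mem_span_singleton.1 hy
      simp [h2 a ha, h3]
    · exact lt_of_le_of_ne le_sup_left fun e =>
        hv (e ▸ Submodule.mem_sup_right (Submodule.mem_span_singleton_self v))
  have hb : U v ≠ 0 := fun h => U0 (key U hU hAU h)
  have h1 := key _ (hl _ (hW U hU) _ hU (U v) (tau w D U v))
    (fun a ha => by simp [tau_apply, hAU a ha, hAU _ (hA _ a ha)]) (by simp [mul_comm])
  have h2 : ∀ h, sc (w ^ (n + 1)) (U v) * (Dl w n * U h + ∑ i, Dli w i * U (D i h)) =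
      Dl w n * U v * sc (w ^ (n + 1)) (U h) := by
    intro h
    have := congrArg (sc (w ^ (n + 1))) (LinearMap.congr_fun h1 h)
    simp only [LinearMap.sub_apply, LinearMap.smul_apply, smul_eq_mul, map_sub, map_mul,
      sc_tau hw0, hAU _ (hDv _), mul_zero, sum_const_zero, add_zero, LinearMap.zero_apply,
      map_zero] at this
    exact sub_eq_zero.1 this
  have h3 : ∀ h, (∃ κ, U h = C κ * U v) ∧ ∀ i, U (D i h) = 0 := by
    refine hind _ ⟨⟨0, by simp⟩, by simp⟩ fun h ih => ?_
    choose γ hγ using fun i => (ih i).1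
    obtain ⟨g0, hκ⟩ := diff_eq hw0 hw (a := U h) hb (γ := γ) (by
      rw [← h2 h, mul_sum]
      congr 2
      exact sum_congr rfl fun i _ => by rw [hγ]; ring)
    exact ⟨hκ, fun i => by rw [hγ, g0, map_zero, zero_mul]⟩
  exact U0 (LinearMap.ker_eq_top.1 (hreach _ (hf U hU) fun i x _ => (h3 x).2 i))

/-- the functionals `p_l` -/
noncomputable def pr (w : L) (D : Fin n → V →ₗ[F] V) (f : V) : ℕ → (V →ₗ[F] L[X]) → L[X]
  | 0, U => U f
  | l + 1, U => sc (w ^ (n + 1)) (pr w D f l (tau w D U))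

lemma pr_coord (hw0 : w ≠ 0) {ι : Type*} [Fintype ι] (e : Basis ι F V) (l : ℕ) :
    ∃ p : ι → L[X], (∀ a, (p a).natDegree ≤ n * l) ∧ ∀ U, pr w D f l U = ∑ a, p a * U (e a) := by
  have ex : ∀ (U : V →ₗ[F] L[X]) x, U x = ∑ a, C (algebraMap F L (e.repr x a)) * U (e a) := by
    intro U x
    conv_lhs => rw [← e.sum_repr x]
    simp only [map_sum, map_smul, Algebra.smul_def, algebraMap_apply]
  induction l with
  | zero => exact ⟨fun a => C (algebraMap F L (e.repr f a)), by simp, fun U => ex U f⟩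
  | succ l ih =>
    obtain ⟨p, hp, hU⟩ := ih
    have hq : ∀ a, (sc (w ^ (n + 1)) (p a)).natDegree ≤ n * l := fun a => by
      rw [natDegree_sc (pow_ne_zero _ hw0)]; exact hp a
    refine ⟨fun b => sc (w ^ (n + 1)) (p b) * Dl w n + ∑ a, ∑ i, sc (w ^ (n + 1)) (p a) *
      Dli w i * C (algebraMap F L (e.repr (D i (e a)) b)), fun b => ?_, fun U => ?_⟩
    · refine natDegree_add_le_of_degree_le (natDegree_mul_le.trans ?_)
        (natDegree_sum_le_of_forall_le _ _ fun a _ => natDegree_sum_le_of_forall_le _ _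
          fun i _ => (natDegree_mul_C_le _ _).trans (natDegree_mul_le.trans ?_))
      · exact add_le_add (hq b) (natDegree_Dl w n)
      · exact add_le_add (hq a) (natDegree_Dli w i)
    · simp only [pr, hU, map_sum, map_mul, sc_tau hw0, mul_add, add_mul, sum_add_distrib,
        mul_assoc, sum_mul]
      congr 1
      rw [sum_comm]
      refine sum_congr rfl fun a _ => ?_
      rw [sum_comm, mul_sum]
      refine sum_congr rfl fun i _ => ?_
      rw [ex U (D i (e a)), mul_sum, mul_sum]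

theorem core [Module.Finite F V] (hw0 : w ≠ 0) (hw : Function.Injective fun m : ℤ => w ^ m)
    (hind : ∀ P : V → Prop, P 0 → (∀ v, (∀ i, P (D i v)) → P v) → ∀ v, P v)
    (hreach : ∀ A : Submodule F V, f ∈ A → (∀ i, ∀ v ∈ A, D i v ∈ A) → A = ⊤)
    (u : ℕ → V →ₗ[F] L) (u0 : u 0 ≠ 0)
    (hu : ∀ k h, u (k + 1) h = (Dl w n).eval ((w ^ (n + 1)) ^ k) * u k h +
      ∑ i, (Dli w i).eval ((w ^ (n + 1)) ^ k) * u k (D i h)) :
    ∃ k ≤ n * finrank F V ^ 2 + finrank F V, u k f ≠ 0 := by
  classical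
  by_contra hc
  push Not at hc
  set R := finrank F V
  set q := w ^ (n + 1) with hq
  have q0 : q ≠ 0 := pow_ne_zero _ hw0
  let e := Module.finBasis F V
  choose p hp hU using pr_coord (D := D) (f := f) hw0 e
  have un : ∀ k, u k ≠ 0 := by
    intro k
    induction k with
    | zero => exact u0
    | succ k ih =>
      intro h
      refine ih (LinearMap.ext (hind (fun v => u k v = 0) (map_zero _) fun v hv => ?_))
      have h1 := hu k v
      simp only [h, LinearMap.zero_apply, hv, mul_zero, sum_const_zero, add_zero] at h1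
      refine (mul_eq_zero.1 h1.symm).resolve_left ?_
      rw [Dl, eval_prod]
      refine prod_ne_zero_iff.2 fun j _ => ?_
      rw [hq, ← pow_mul, ← zpow_natCast, Ne, eval_fac_eq_zero hw0 hw]
      positivity
  have ev : ∀ l j (U : V →ₗ[F] L[X]), (∀ h, (U h).eval (q ^ j) = u j h) →
      (pr w D f l U).eval (q ^ j) = u (j + l) f := by
    intro l
    induction l with
    | zero => exact fun j U h => h f
    | succ l ih =>
      intro j U h
      rw [pr, eval_sc, ← pow_succ', ih (j + 1), add_assoc, add_comm 1]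
      intro x
      rw [tau_apply, eval_sc, pow_succ' q, inv_mul_cancel_left₀ q0, hu]
      simp [eval_finsetSum, h]
  let P : Matrix (Fin R) (Fin R) L[X] := Matrix.of fun l a => p l a
  have hdet : P.det = 0 := by
    refine eq_zero_of_natDegree_lt_card_of_eval_eq_zero _ (ι := Fin (n * R ^ 2 + 1))
      ((pow_inj hw n).comp Fin.val_injective) (fun j => ?_) ?_
    · change (evalRingHom (q ^ (j : ℕ))) P.det = 0
      rw [RingHom.map_det, ← Matrix.exists_mulVec_eq_zero_iff]
      refine ⟨fun a => u j (e a), fun h => un j (e.ext fun a => congrFun h a), funext fun l => ?_⟩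
      have := ev l j (((CAlgHom (R := L)).toLinearMap.restrictScalars F) ∘ₗ u j) (by simp)
      rw [hc _ (by omega), hU] at this
      simpa [eval_finsetSum, Matrix.mulVec, dotProduct, P] using this
    · rw [Fintype.card_fin, Nat.lt_succ_iff, Matrix.det_apply]
      refine natDegree_sum_le_of_forall_le _ _ fun σ _ => (natDegree_smul_le _ _).trans
        ((natDegree_prod_le _ _).trans ((sum_le_card_nsmul _ _ (n * R) fun i _ =>
          (hp _ _).trans (Nat.mul_le_mul_left _ (σ i).2.le)).trans (le_of_eq ?_)))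
      simp; ring
  obtain ⟨x, x0, hx⟩ := Matrix.exists_mulVec_eq_zero_iff.2 hdet
  obtain ⟨v, v0, hv⟩ := Matrix.exists_vecMul_eq_zero_iff.2 hdet
  have rel : ∀ t : ℕ, ∀ U, ∑ j : Fin R, sc (q ^ t) (v j) * pr w D f (j + t) U = 0 := by
    intro t
    induction t with
    | zero =>
      intro U
      simp only [pow_zero, sc_one, add_zero, hU, mul_sum, ← mul_assoc]
      rw [sum_comm]
      refine sum_eq_zero fun a _ => ?_
      rw [← sum_mul, show ∑ j, v j * p j a = 0 from congrFun hv a, zero_mul]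
    | succ t ih =>
      intro U
      have := congrArg (sc q) (ih (tau w D U))
      simp only [map_sum, map_mul, sc_sc, ← pow_succ', map_zero] at this
      exact this
  obtain ⟨l, hl, hmax⟩ := exists_max_image (univ.filter fun j => v j ≠ 0) id
    (by obtain ⟨j, hj⟩ := Function.ne_iff.1 v0; exact ⟨j, by simpa using hj⟩)
  have hl' : v l ≠ 0 := by simpa using hl
  have hin : ∀ m, pr w D f m (e.constr F x) = 0 := by
    intro m
    induction m using Nat.strong_induction_on with
    | _ m ih =>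
      by_cases hm : m < R
      · rw [hU]
        simpa [Matrix.mulVec, dotProduct, P] using congrFun hx ⟨m, hm⟩
      · have h1 := rel (m - l) (e.constr F x)
        have h2 := l.2
        rw [sum_eq_single l, show (l : ℕ) + (m - l) = m by omega] at h1
        · exact (mul_eq_zero.1 h1).resolve_left ((sc_eq_zero (pow_ne_zero _ q0)).not.2 hl')
        · intro j _ hj
          by_cases hvj : v j = 0
          · simp [hvj]
          · have h3 : j < l := lt_of_le_of_ne (hmax j (by simpa using hvj)) hj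
            rw [ih _ (by have := Fin.lt_def.1 h3; omega), mul_zero]
        · simp
  have := inv_zero hw0 hw hind hreach {U | ∀ m, pr w D f m U = 0}
    (fun U hU m => (sc_eq_zero q0).1 (hU (m + 1))) (fun U h U' h' b c m => ?_)
    (fun U hU => hU 0) _ hin
  · exact x0 (funext fun a => by simpa using LinearMap.congr_fun this (e a))
  · have h1 := h m
    have h2 := h' m
    rw [hU] at h1 h2 ⊢
    simp only [LinearMap.sub_apply, LinearMap.smul_apply, smul_eq_mul, mul_sub, sum_sub_distrib,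
      mul_left_comm _ b, mul_left_comm _ c, ← mul_sum, h1, h2, mul_zero, sub_zero]

end Vale.Agent.P314
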