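import Mathlib.Algebra.FreeAlgebra
import Mathlib.Data.Matrix.Basis
import Mathlib.Computability.TuringMachine.Computable

/-! Definitions for P314: noncommutative formulas, hitting sets and their encodings. -/

namespace Vale.Agent.P314

/-- Noncommutative formulas over `F` in the variables `x_0, …, x_(n-1)`: rooted trees whose leaves
are variables or scalars and whose inner vertices are binary sums or ordered binary products. -/
inductive Formula (F : Type) (n : ℕ) : Type
  | var (i : Fin n) : Formula F n
  | const (a : F) : Formula F n
  | add (φ ψ : Formula F n) : Formula F n
  | mul (φ ψ : Formula F n) : Formula F n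

/-- The size of a formula: the number of vertices, leaves included. -/
def Formula.size {F : Type} {n : ℕ} : Formula F n → ℕ
  | .var _ => 1
  | .const _ => 1
  | .add φ ψ => φ.size + ψ.size + 1
  | .mul φ ψ => φ.size + ψ.size + 1

/-- The noncommutative polynomial computed by a formula. -/
noncomputable def Formula.poly {F : Type} [Field F] {n : ℕ} : Formula F n → FreeAlgebra F (Fin n)
  | .var i => FreeAlgebra.ι F i
  | .const a => algebraMap F (FreeAlgebra F (Fin n)) a
  | .add φ ψ => φ.poly + ψ.poly
  | .mul φ ψ => φ.poly * ψ.poly

/-- A tuple of `n` square matrices of the same dimension `d`. -/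
structure Tuple (F : Type) (n : ℕ) : Type where
  /-- the dimension -/
  d : ℕ
  /-- the matrices -/
  T : Fin n → Matrix (Fin d) (Fin d) F

/-- `H` is a hitting set for the polynomials computed by formulas of size at most `s`. -/
def IsHittingSet {F : Type} [Field F] (n s : ℕ) (H : List (Tuple F n)) : Prop :=
  ∀ φ : Formula F n, φ.size ≤ s → φ.poly ≠ 0 → ∃ t ∈ H, FreeAlgebra.lift F t.T φ.poly ≠ 0

/-- The input `(n, s)` in unary, separated by the separator symbol `none`. -/
def encodeInput (p : ℕ × ℕ) : List (Option Bool) :=
  List.replicate p.1 (some true) ++ none :: List.replicate p.2 (some true)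

/-- A tuple is written as its dimension in unary and a separator, followed by all the entries of
all the matrices (matrix by matrix, row by row), each entry being its binary code `enc`
followed by a separator. -/
def encodeTuple {F : Type} {n : ℕ} (enc : F → List Bool) (t : Tuple F n) : List (Option Bool) :=
  List.replicate t.d (some true) ++ none ::
    (List.finRange n).flatMap fun i => (List.finRange t.d).flatMap fun r =>
      (List.finRange t.d).flatMap fun c => (enc (t.T i r c)).map some ++ [none]

/-- A list of tuples is written as the concatenation of the codes of its members. -/
def encodeSet {F : Type} {n : ℕ} (enc : F → List Bool) (H : List (Tuple F n)) :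
    List (Option Bool) :=
  H.flatMap (encodeTuple enc)

end Vale.Agent.P314
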