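import Mathlib.Algebra.Polynomial.Roots
import Mathlib.Algebra.Polynomial.FieldDivision
import Mathlib.RingTheory.EuclideanDomain
import Mathlib.Algebra.Polynomial.BigOperators
import Mathlib.Tactic.FieldSimp
import Mathlib.Tactic.LinearCombination
import Mathlib.Tactic.ComputeDegree

/-! A difference equation in `L[y]` with only trivial solutions. -/

open Polynomial Finset

namespace Vale.Agent.P314

variable {L : Type*} [Field L]

/-- the substitution `y ↦ c y` -/
noncomputable def sc (c : L) : L[X] →+* L[X] := compRingHom (C c * X)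

lemma eval_sc (c z : L) (p : L[X]) : (sc c p).eval z = p.eval (c * z) := by
  simp [sc, eval_comp]

lemma coeff_sc (c : L) (p : L[X]) (k : ℕ) : (sc c p).coeff k = p.coeff k * c ^ k :=
  comp_C_mul_X_coeff

lemma sc_C (c a : L) : sc c (C a) = C a := by simp [sc]

lemma sc_sc (c c' : L) (p : L[X]) : sc c (sc c' p) = sc (c * c') p := by
  ext k; simp only [coeff_sc]; ring

lemma sc_one (p : L[X]) : sc 1 p = p := by
  ext k; simp [coeff_sc]

lemma sc_eq_zero {c : L} (hc : c ≠ 0) {p : L[X]} : sc c p = 0 ↔ p = 0 :=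
  comp_C_mul_X_eq_zero_iff (mem_nonZeroDivisors_of_ne_zero hc)

lemma natDegree_sc {c : L} (hc : c ≠ 0) (p : L[X]) : (sc c p).natDegree = p.natDegree := by
  simp [sc, natDegree_comp, natDegree_C_mul_X _ hc]

/-- the linear factors -/
noncomputable def fac (w : L) {n : ℕ} (i : Fin n) : L[X] := 1 - C (w ^ ((i : ℕ) + 1)) * X

/-- the product of all factors -/
noncomputable def Dl (w : L) (n : ℕ) : L[X] := ∏ i : Fin n, fac w i

/-- the product of all factors but one -/
noncomputable def Dli (w : L) {n : ℕ} (i : Fin n) : L[X] := ∏ j ∈ univ.erase i, fac w j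

lemma natDegree_fac (w : L) {n : ℕ} (i : Fin n) : (fac w i).natDegree ≤ 1 := by
  unfold fac; compute_degree

lemma natDegree_Dl (w : L) (n : ℕ) : (Dl w n).natDegree ≤ n :=
  (natDegree_prod_le _ _).trans ((sum_le_card_nsmul _ _ 1 fun i _ => natDegree_fac w i).trans
    (by simp))

lemma natDegree_Dli (w : L) {n : ℕ} (i : Fin n) : (Dli w i).natDegree ≤ n :=
  (natDegree_prod_le _ _).trans ((sum_le_card_nsmul _ _ 1 fun i _ => natDegree_fac w i).trans
    (by simp))

variable {w : L}

lemma eval_fac_eq_zero (hw0 : w ≠ 0) (hw : Function.Injective fun m : ℤ => w ^ m) {n : ℕ}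
    (i : Fin n) (m : ℤ) : (fac w i).eval (w ^ m) = 0 ↔ (i : ℤ) + 1 + m = 0 := by
  have : w ^ ((i : ℕ) + 1) * w ^ m = w ^ ((i : ℤ) + 1 + m) := by
    rw [zpow_add₀ hw0, ← zpow_natCast]; simp
  simp only [fac, eval_sub, eval_one, eval_mul, eval_C, eval_X, this, sub_eq_zero]
  rw [← zpow_zero w]
  exact hw.eq_iff.trans eq_comm

lemma Dl_ne_zero (n : ℕ) : Dl w n ≠ 0 := by
  intro h
  simpa [Dl, eval_prod, fac] using congrArg (eval 0) h

lemma gamma_zero (hw0 : w ≠ 0) (hw : Function.Injective fun m : ℤ => w ^ m) {n : ℕ} {a b : L[X]}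
    (hb : b ≠ 0) (hab : ∀ z, b.eval z = 0 → a.eval z ≠ 0) {γ : Fin n → L}
    (h : sc (w ^ (n + 1)) b * (Dl w n * a + b * ∑ i, C (γ i) * Dli w i) =
      Dl w n * b * sc (w ^ (n + 1)) a) (i : Fin n) : γ i = 0 := by
  by_contra hγ
  set z : ℤ → L := fun m => w ^ (-((i : ℤ) + 1) + (n + 1) * m) with hz
  have zs : ∀ m, w ^ (n + 1) * z m = z (m + 1) := by
    intro m
    simp only [hz]
    rw [← zpow_natCast, ← zpow_add₀ hw0]
    congr 1; push_cast; ring
  have zi : Function.Injective z := by
    intro m m' e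
    have := hw e
    simp only [add_right_inj] at this
    exact mul_left_cancel₀ (by positivity) this
  have E : ∀ m, b.eval (z (m + 1)) * ((Dl w n).eval (z m) * a.eval (z m) + b.eval (z m) *
      ∑ j, γ j * (Dli w j).eval (z m)) =
      (Dl w n).eval (z m) * b.eval (z m) * a.eval (z (m + 1)) := by
    intro m
    simpa [eval_sc, zs, eval_finsetSum] using congrArg (eval (z m)) h
  have D1 : ∀ m, m ≠ 0 → (Dl w n).eval (z m) ≠ 0 := by
    intro m hm
    rw [Dl, eval_prod]
    refine prod_ne_zero_iff.2 fun j _ => ?_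
    rw [Ne, hz, eval_fac_eq_zero hw0 hw]
    have := i.2
    have := j.2
    rcases lt_or_gt_of_ne hm with h | h <;> nlinarith
  have f0 : (fac w i).eval (z 0) = 0 := by rw [hz, eval_fac_eq_zero hw0 hw]; ring
  have D0 : (Dl w n).eval (z 0) = 0 := by
    rw [Dl, eval_prod]; exact prod_eq_zero (mem_univ i) f0
  have D2 : ∑ j, γ j * (Dli w j).eval (z 0) ≠ 0 := by
    rw [sum_eq_single i]
    · refine mul_ne_zero hγ ?_
      rw [Dli, eval_prod]
      refine prod_ne_zero_iff.2 fun j hj => ?_
      rw [Ne, hz, eval_fac_eq_zero hw0 hw]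
      intro e
      exact (mem_erase.1 hj).1 (Fin.ext (by omega))
    · intro j _ hj
      rw [Dli, eval_prod, prod_eq_zero (mem_erase.2 ⟨hj.symm, mem_univ i⟩) f0, mul_zero]
    · simp
  have E0 := E 0
  simp only [D0, zero_mul, zero_add, mul_eq_zero] at E0
  apply hb
  apply eq_zero_of_infinite_isRoot
  rcases E0 with e | e | e
  · refine Set.infinite_of_injective_forall_mem (f := fun k : ℕ => z (k + 1))
      (fun k k' e => by simpa using zi e) fun k => ?_
    change b.eval (z (k + 1)) = 0
    induction k with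
    | zero => simpa using e
    | succ k ih =>
      have := E (k + 1)
      rw [ih, zero_mul, add_zero, mul_zero, zero_mul] at this
      push_cast
      exact (mul_eq_zero.1 this).resolve_right (mul_ne_zero (D1 _ (by omega)) (hab _ ih))
  · refine Set.infinite_of_injective_forall_mem (f := fun k : ℕ => z (-k))
      (fun k k' e => by simpa using zi e) fun k => ?_
    change b.eval (z (-k)) = 0
    induction k with
    | zero => simpa using e
    | succ k ih =>
      have := E (-(k + 1 : ℕ))
      rw [show (-(k + 1 : ℕ) + 1 : ℤ) = -k by push_cast; ring, ih, zero_mul] at this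
      exact (mul_eq_zero.1 ((mul_eq_zero.1 this.symm).resolve_right (hab _ ih))).resolve_left
        (D1 _ (by omega))
  · exact absurd e D2

lemma prop_of_sc {q : L} (hq0 : q ≠ 0) (hq : Function.Injective fun k : ℕ => q ^ k) {a b : L[X]}
    (hb : b ≠ 0) (h : sc q b * a = b * sc q a) : ∃ κ, a = C κ * b := by
  refine ⟨a.coeff b.natDegree / b.leadingCoeff, ?_⟩
  rw [← sub_eq_zero]
  set a' := a - C (a.coeff b.natDegree / b.leadingCoeff) * b with ha'
  have lb := leadingCoeff_ne_zero.2 hb
  have h1 : a'.coeff b.natDegree = 0 := by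
    simp only [ha', coeff_sub, coeff_C_mul, coeff_natDegree]; field_simp; ring
  have h2 : sc q b * a' = b * sc q a' := by
    simp only [ha', map_sub, map_mul, sc_C]; linear_combination h
  by_contra h0
  have la := leadingCoeff_ne_zero.2 h0
  have l : ∀ p : L[X], (sc q p).leadingCoeff = p.leadingCoeff * q ^ p.natDegree := fun p => by
    rw [leadingCoeff, natDegree_sc hq0, coeff_sc, coeff_natDegree]
  have h3 := congrArg leadingCoeff h2
  rw [leadingCoeff_mul, leadingCoeff_mul, l, l, mul_assoc, mul_comm _ a'.leadingCoeff] at h3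
  have h4 := hq (mul_left_cancel₀ la (mul_left_cancel₀ lb h3))
  exact la (by rw [leadingCoeff, ← h4, h1])

lemma pow_inj (hw : Function.Injective fun m : ℤ => w ^ m) (n : ℕ) :
    Function.Injective fun k : ℕ => (w ^ (n + 1)) ^ k := by
  intro k k' e
  simp only [← pow_mul] at e
  rw [← zpow_natCast, ← zpow_natCast] at e
  exact mul_left_cancel₀ (Nat.succ_ne_zero n) (by exact_mod_cast hw e)

theorem diff_eq (hw0 : w ≠ 0) (hw : Function.Injective fun m : ℤ => w ^ m) {n : ℕ} {a b : L[X]}
    (hb : b ≠ 0) {γ : Fin n → L}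
    (h : sc (w ^ (n + 1)) b * (Dl w n * a + b * ∑ i, C (γ i) * Dli w i) =
      Dl w n * b * sc (w ^ (n + 1)) a) : (∀ i, γ i = 0) ∧ ∃ κ, a = C κ * b := by
  classical
  have hq0 : w ^ (n + 1) ≠ 0 := pow_ne_zero _ hw0
  have hγ : ∀ i, γ i = 0 := by
    let _ : GCDMonoid L[X] := EuclideanDomain.gcdMonoid _
    obtain ⟨a', b', ea, eb, hu⟩ := _root_.extract_gcd a b
    set g := gcd a b
    have hg : g ≠ 0 := fun h => hb (by rw [eb, h, zero_mul])
    refine gamma_zero hw0 hw (a := a') (b := b') (fun h => hb (by rw [eb, h, mul_zero])) ?_ ?_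
    · intro z h1 h2
      exact not_isUnit_X_sub_C z (isUnit_of_dvd_unit
        (dvd_gcd (dvd_iff_isRoot.2 h2) (dvd_iff_isRoot.2 h1)) hu)
    · rw [ea, eb, map_mul, map_mul] at h
      apply mul_left_cancel₀ (mul_ne_zero hg ((sc_eq_zero hq0).not.2 hg))
      linear_combination h
  refine ⟨hγ, prop_of_sc hq0 (pow_inj hw n) hb ?_⟩
  apply mul_left_cancel₀ (Dl_ne_zero (w := w) n)
  simp only [hγ, map_zero, zero_mul, sum_const_zero, mul_zero, add_zero] at h
  linear_combination h

end Vale.Agent.P314
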