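import Vale.Agent.P314.Defs
import Vale.Agent.P314.Core
import Mathlib.LinearAlgebra.Matrix.Notation
import Mathlib.LinearAlgebra.FiniteDimensional.Lemmas

/-! Left quotients in the free algebra. -/

open Finset Module FreeAlgebra

namespace Vale.Agent.P314

variable {F : Type} [Field F] {n : ℕ}

/-- the triangular representation whose corner is the left quotient -/
noncomputable def tri (i : Fin n) :
    FreeAlgebra F (Fin n) →ₐ[F] Matrix (Fin 2) (Fin 2) (FreeAlgebra F (Fin n)) :=
  lift F fun j => !![0, if j = i then 1 else 0; 0, ι F j]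

/-- left quotient by the variable `x_i` -/
noncomputable def dq (i : Fin n) : FreeAlgebra F (Fin n) →ₗ[F] FreeAlgebra F (Fin n) where
  toFun g := tri i g 0 1
  map_add' g h := by simp
  map_smul' c g := by simp

lemma tri_eq (i : Fin n) (g : FreeAlgebra F (Fin n)) :
    tri i g = !![algebraMap F _ (algebraMapInv g), dq i g; 0, g] := by
  have : tri i g 0 0 = algebraMap F _ (algebraMapInv g) ∧ tri i g 1 0 = 0 ∧ tri i g 1 1 = g := by
    induction g using FreeAlgebra.induction with
    | grade0 r => simp [Matrix.algebraMap_matrix_apply]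
    | grade1 j => simp [tri, algebraMapInv]
    | mul a b ha hb => simp [Matrix.mul_apply, ha, hb]
    | add a b ha hb => simp [ha, hb]
  ext a b
  fin_cases a <;> fin_cases b <;> simp [this, dq]

lemma dq_algebraMap (i : Fin n) (r : F) :
    dq i (algebraMap F (FreeAlgebra F (Fin n)) r) = 0 := by
  simp [dq, Matrix.algebraMap_matrix_apply]

lemma dq_ι (i j : Fin n) : dq i (ι F j) = if j = i then 1 else 0 := by simp [dq, tri]

lemma dq_mul (i : Fin n) (g h : FreeAlgebra F (Fin n)) :
    dq i (g * h) = dq i g * h + algebraMapInv g • dq i h := by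
  change tri i (g * h) 0 1 = _
  rw [map_mul, tri_eq i g, tri_eq i h]
  simp [Matrix.mul_apply, Algebra.smul_def, add_comm]

lemma decomp (g : FreeAlgebra F (Fin n)) :
    g = algebraMap F _ (algebraMapInv g) + ∑ i, ι F i * dq i g := by
  induction g using FreeAlgebra.induction with
  | grade0 r => simp [dq_algebraMap]
  | grade1 j => simp [dq_ι, algebraMapInv]
  | mul a b ha hb =>
    simp only [dq_mul, mul_add, sum_add_distrib, ← mul_assoc, ← sum_mul, map_mul, mul_smul_comm,
      ← smul_sum]
    calc a * b = algebraMapInv a • b + (∑ i, ι F i * dq i a) * b := by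
          conv_lhs => rw [ha, add_mul, ← Algebra.smul_def]
      _ = _ := by
          conv_lhs => enter [1]; rw [hb, smul_add, Algebra.smul_def]
          abel
  | add a b ha hb =>
    simp only [map_add, mul_add, sum_add_distrib]
    conv_lhs => rw [ha, hb]
    abel

/-- the elements killed by all long enough iterated quotients -/
inductive Nilp : FreeAlgebra F (Fin n) → Prop
  | zero : Nilp 0
  | step {g} : (∀ i, Nilp (dq i g)) → Nilp g

lemma Nilp.dq {g : FreeAlgebra F (Fin n)} (h : Nilp g) (i : Fin n) : Nilp (dq i g) := by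
  cases h with
  | zero => simpa using Nilp.zero
  | step h => exact h i

lemma Nilp.add {g h : FreeAlgebra F (Fin n)} (hg : Nilp g) (hh : Nilp h) : Nilp (g + h) := by
  induction hg generalizing h with
  | zero => simpa using hh
  | step _ ih => exact Nilp.step fun i => by rw [map_add]; exact ih i (hh.dq i)

lemma Nilp.smul {g : FreeAlgebra F (Fin n)} (hg : Nilp g) (c : F) : Nilp (c • g) := by
  induction hg with
  | zero => simpa using Nilp.zero
  | step _ ih => exact Nilp.step fun i => by rw [map_smul]; exact ih i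

lemma Nilp.mul {g h : FreeAlgebra F (Fin n)} (hg : Nilp g) (hh : Nilp h) : Nilp (g * h) := by
  induction hg with
  | zero => simpa using Nilp.zero
  | step _ ih => exact Nilp.step fun i => by rw [dq_mul]; exact (ih i).add ((hh.dq i).smul _)

lemma nilp_all (g : FreeAlgebra F (Fin n)) : Nilp g := by
  have h0 : ∀ r : F, Nilp (algebraMap F (FreeAlgebra F (Fin n)) r) := fun r =>
    Nilp.step fun i => by rw [dq_algebraMap]; exact Nilp.zero
  induction g using FreeAlgebra.induction with
  | grade0 r => exact h0 r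
  | grade1 j =>
    refine Nilp.step fun i => ?_
    rw [dq_ι]
    split_ifs
    · simpa using h0 1
    · exact Nilp.zero
  | mul a b ha hb => exact ha.mul hb
  | add a b ha hb => exact ha.add hb

lemma dq_induction (P : FreeAlgebra F (Fin n) → Prop) (h0 : P 0)
    (hs : ∀ v, (∀ i, P (dq i v)) → P v) (v : FreeAlgebra F (Fin n)) : P v := by
  induction nilp_all v with
  | zero => exact h0
  | step _ ih => exact hs _ ih

lemma exists_inv (φ : Formula F n) : ∃ V : Submodule F (FreeAlgebra F (Fin n)),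
    Module.Finite F V ∧ finrank F V ≤ φ.size + 1 ∧ φ.poly ∈ V ∧ ∀ i, ∀ v ∈ V, dq i v ∈ V := by
  have one : ∀ x : FreeAlgebra F (Fin n), finrank F (F ∙ x) ≤ 1 := fun x => by
    simpa using finrank_span_le_card (R := F) ({x} : Set (FreeAlgebra F (Fin n)))
  have d1 : ∀ i : Fin n, dq i (1 : FreeAlgebra F (Fin n)) = 0 := fun i => by
    simpa using dq_algebraMap (F := F) i 1
  induction φ with
  | var j =>
    refine ⟨(F ∙ ι F j) ⊔ F ∙ 1, inferInstance, (Submodule.finrank_add_le_finrank_add_finrank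
      _ _).trans (add_le_add (one _) (one _)),
      Submodule.mem_sup_left (Submodule.mem_span_singleton_self _), fun i v hv => ?_⟩
    obtain ⟨a, ha, b, hb, rfl⟩ := Submodule.mem_sup.1 hv
    obtain ⟨c, rfl⟩ := Submodule.mem_span_singleton.1 ha
    obtain ⟨c', rfl⟩ := Submodule.mem_span_singleton.1 hb
    rw [map_add, map_smul, map_smul, d1, smul_zero, add_zero, dq_ι]
    refine Submodule.mem_sup_right (Submodule.smul_mem _ _ ?_)
    split_ifs
    · exact Submodule.mem_span_singleton_self _
    · exact Submodule.zero_mem _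
  | const a =>
    refine ⟨F ∙ 1, inferInstance, (one _).trans (by simp), ?_, fun i v hv => ?_⟩
    · exact Submodule.mem_span_singleton.2 ⟨a, by simp [Formula.poly, Algebra.smul_def]⟩
    · obtain ⟨c, rfl⟩ := Submodule.mem_span_singleton.1 hv
      simp [d1]
  | add φ ψ h1 h2 =>
    obtain ⟨V₁, f1, r1, m1, i1⟩ := h1
    obtain ⟨V₂, f2, r2, m2, i2⟩ := h2
    refine ⟨V₁ ⊔ V₂, inferInstance, (Submodule.finrank_add_le_finrank_add_finrank _ _).trans
      (by simp only [Formula.size]; omega), Submodule.add_mem_sup m1 m2, fun i v hv => ?_⟩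
    obtain ⟨a, ha, b, hb, rfl⟩ := Submodule.mem_sup.1 hv
    rw [map_add]
    exact Submodule.add_mem_sup (i1 i a ha) (i2 i b hb)
  | mul φ ψ h1 h2 =>
    obtain ⟨V₁, f1, r1, m1, i1⟩ := h1
    obtain ⟨V₂, f2, r2, m2, i2⟩ := h2
    have := Submodule.finrank_map_le (LinearMap.mulRight F ψ.poly) V₁
    refine ⟨V₁.map (LinearMap.mulRight F ψ.poly) ⊔ V₂, inferInstance,
      (Submodule.finrank_add_le_finrank_add_finrank _ _).trans
      (by simp only [Formula.size]; omega), Submodule.mem_sup_left ⟨_, m1, rfl⟩, fun i v hv => ?_⟩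
    obtain ⟨_, ⟨a, ha, rfl⟩, b, hb, rfl⟩ := Submodule.mem_sup.1 hv
    rw [map_add, LinearMap.mulRight_apply, dq_mul, add_assoc]
    exact Submodule.add_mem_sup ⟨_, i1 i a ha, rfl⟩
      (V₂.add_mem (V₂.smul_mem _ (i2 i _ m2)) (i2 i b hb))

theorem formula_core {L : Type*} [Field L] [Algebra F L] {w : L} (hw0 : w ≠ 0)
    (hw : Function.Injective fun m : ℤ => w ^ m) (φ : Formula F n) (hφ : φ.poly ≠ 0)
    (u : ℕ → FreeAlgebra F (Fin n) →ₗ[F] L) (u0 : ∀ h, u 0 h = algebraMap F L (algebraMapInv h))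
    (hu : ∀ k h, u (k + 1) h = (Dl w n).eval ((w ^ (n + 1)) ^ k) * u k h +
      ∑ i, (Dli w i).eval ((w ^ (n + 1)) ^ k) * u k (dq i h)) :
    ∃ k ≤ n * (φ.size + 1) ^ 2 + (φ.size + 1), u k φ.poly ≠ 0 := by
  obtain ⟨V, fV, rV, mV, iV⟩ := exists_inv φ
  let W : Submodule F (FreeAlgebra F (Fin n)) := sInf {A | φ.poly ∈ A ∧ ∀ i, ∀ v ∈ A, dq i v ∈ A}
  have hWV : W ≤ V := sInf_le ⟨mV, iV⟩
  have fW : Module.Finite F W := Submodule.finiteDimensional_of_le hWV
  have rW : finrank F W ≤ φ.size + 1 := (Submodule.finrank_mono hWV).trans rV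
  have mW : φ.poly ∈ W := Submodule.mem_sInf.2 fun A hA => hA.1
  have iW : ∀ i, ∀ v ∈ W, dq i v ∈ W := fun i v hv => Submodule.mem_sInf.2 fun A hA =>
    hA.2 i v (Submodule.mem_sInf.1 hv A hA)
  obtain ⟨k, hk, h⟩ := core (D := fun i => (dq i).restrict (iW i)) (f := ⟨φ.poly, mW⟩) hw0 hw
    (fun P h0 hs v => dq_induction (fun v => ∀ hv : v ∈ W, P ⟨v, hv⟩) (fun _ => h0)
      (fun v ih hv => hs _ fun i => ih i _) v.1 v.2)
    (fun A hA hi => by
      have : W ≤ A.map W.subtype := sInf_le ⟨⟨_, hA, rfl⟩, by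
        rintro i _ ⟨v, hv, rfl⟩
        exact ⟨_, hi i v hv, rfl⟩⟩
      refine eq_top_iff.2 fun v _ => ?_
      obtain ⟨v', hv', e⟩ := this v.2
      exact Subtype.ext e ▸ hv')
    (fun k => u k ∘ₗ W.subtype) (fun h0 => hφ (dq_induction (fun v => v ∈ W → v = 0)
      (fun _ => rfl) (fun v ih hv => by
        have h1 : algebraMapInv v = 0 := by
          simpa [u0] using LinearMap.congr_fun h0 ⟨v, hv⟩
        rw [decomp v, h1]
        simp [fun i => ih i (iW i v hv)]) _ mW))
    (fun k h => hu k h.1)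
  exact ⟨k, hk.trans (by gcongr), h⟩

end Vale.Agent.P314
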