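import Vale.Agent.P314.Mat
import Vale.Agent.Lib.TM.Num

/-! The polynomial time machine printing the hitting set. -/

namespace Vale.Agent.P314

open Vale.Agent.TM

/-- the text printed for parameters `n`, `K`, `D` -/
def text (z o : List (Option Bool)) (n K D : ℕ) : List (Option Bool) :=
  List.replicate ((K + 1) * (D + 1)) (some true) ++ none ::
    (List.range n).flatMap fun i => (List.range ((K + 1) * (D + 1))).flatMap fun r =>
      (List.range ((K + 1) * (D + 1))).flatMap fun c => if bit n D i r c then o else z

lemma PB_bit {ι : Type} [Finite ι] {n D i r c : (ι → List (Option Bool)) → ℕ} (hn : PN n)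
    (hD : PN D) (hi : PN i) (hr : PN r) (hc : PN c) :
    PB fun x => bit (n x) (D x) (i x) (r x) (c x) := by
  have h1 := hD.add (PN.const 1)
  exact (PB.lt (hc.div h1) (hr.div h1)).and ((PB.le (hc.mod h1) (hr.mod h1)).and (PB.dvd
    (((((hn.add (PN.const 1)).mul (hc.div h1))).add hi).add (PN.const 1))
    ((hr.mod h1).sub (hc.mod h1))))

lemma PT_text {ι : Type} [Finite ι] (z o : List (Option Bool))
    {n K D : (ι → List (Option Bool)) → ℕ} (hn : PN n) (hK : PN K) (hD : PN D) :
    PT fun x => text z o (n x) (K x) (D x) := by
  have hd := (hK.add (PN.const 1)).mul (hD.add (PN.const 1))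
  refine (PT.replicate _ hd).append (PT.cons _ (PT.flatMap_range hn
    (PT.flatMap_range (hd.rename some) (PT.flatMap_range ((hd.rename some).rename some) ?_))))
  exact PT.ite (PB_bit (((hn.rename some).rename some).rename some)
    (((hD.rename some).rename some).rename some) (PN.var (some (some none))) (PN.var (some none))
    (PN.var none)) (PT.const o) (PT.const z)

lemma flatMap_finRange {α : Type} (m : ℕ) (G : ℕ → List α) :
    (List.finRange m).flatMap (fun i : Fin m => G i.1) = (List.range m).flatMap G := by
  rw [← List.map_coe_finRange_eq_range, List.flatMap_map]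

lemma encode_tup {F : Type} [Field F] (enc : F → List Bool) (n K D : ℕ) :
    encodeSet enc [tup F n K D] =
      text ((enc 0).map some ++ [none]) ((enc 1).map some ++ [none]) n K D := by
  simp only [encodeSet, List.flatMap_cons, List.flatMap_nil, List.append_nil, encodeTuple, text,
    ← flatMap_finRange]
  congr 3
  funext i
  congr 1
  funext r
  congr 1
  funext c
  change (enc (if bit n D i r c then 1 else 0)).map some ++ [none] = _
  split_ifs <;> rfl

theorem main (F : Type) [Field F] (enc : F → List Bool) :
    ∃ H : (p : ℕ × ℕ) → List (Tuple F p.1),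
      Nonempty (Turing.TM2ComputableInPolyTime encodeInput id fun p => encodeSet enc (H p)) ∧
      ∀ n s, IsHittingSet n s (H (n, s)) := by
  refine ⟨fun p => [tup F p.1 (p.1 * (p.2 + 1) ^ 2 + (p.2 + 1))
    ((p.1 + 1) ^ 2 * (p.1 * (p.2 + 1) ^ 2 + (p.2 + 1)) ^ 2)], ?_, fun n s => tup_hits s _ le_rfl⟩
  have hn : PN fun x : Unit → List (Option Bool) => ((x ()).takeWhile Option.isSome).length :=
    ((PT.proj ()).takeWhile _).len
  have hs := (PN.var ()).sub hn
  have hK := (hn.mul (hs.pow 2)).add hs
  refine PT.toTM _ _ _ (PT_text ((enc 0).map some ++ [none]) ((enc 1).map some ++ [none]) hn hK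
    (((hn.add (PN.const 1)).pow 2).mul (hK.pow 2))) fun p => ?_
  have e1 : ((encodeInput p).takeWhile Option.isSome).length = p.1 := by
    simp [encodeInput]
  have e2 : (encodeInput p).length - p.1 = p.2 + 1 := by simp [encodeInput]
  simp only [e1, e2, id, encode_tup]

end Vale.Agent.P314
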