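import Vale.Agent.P314.Free
import Mathlib.RingTheory.PowerSeries.Basic
import Mathlib.RingTheory.Localization.FractionRing
import Mathlib.Logic.Equiv.Fin.Basic
import Mathlib.Algebra.BigOperators.NatAntidiagonal

/-! The explicit zero-one tuple. -/

open Finset FreeAlgebra Polynomial Matrix

namespace Vale.Agent.P314

variable {F : Type} [Field F] {n : ℕ}

/-- the exponents -/
def ex (n k i : ℕ) : ℕ := (n + 1) * k + i + 1

/-- the polynomial version of the recursion -/
noncomputable def uP : ℕ → FreeAlgebra F (Fin n) →ₗ[F] F[X]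
  | 0 => Algebra.linearMap F F[X] ∘ₗ algebraMapInv.toLinearMap
  | k + 1 => (∏ i : Fin n, (1 - X ^ ex n k i : F[X])) • uP k +
      ∑ i : Fin n, (∏ j ∈ univ.erase i, (1 - X ^ ex n k j : F[X])) • (uP k ∘ₗ dq i)

lemma uP_succ (k : ℕ) (h : FreeAlgebra F (Fin n)) : uP (k + 1) h =
    (∏ i : Fin n, (1 - X ^ ex n k i : F[X])) * uP k h +
      ∑ i : Fin n, (∏ j ∈ univ.erase i, (1 - X ^ ex n k j : F[X])) * uP k (dq i h) := by
  simp [uP]

lemma natDegree_uP (k : ℕ) (h : FreeAlgebra F (Fin n)) :
    (uP k h).natDegree ≤ (n + 1) ^ 2 * k ^ 2 := by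
  induction k generalizing h with
  | zero => simp [uP]
  | succ k ih =>
    have h1 : ∀ s : Finset (Fin n), (∏ j ∈ s, (1 - X ^ ex n k j : F[X])).natDegree ≤
        n * ((n + 1) * (k + 1)) := fun s => (natDegree_prod_le _ _).trans
      ((sum_le_card_nsmul _ _ ((n + 1) * (k + 1)) fun j _ => (natDegree_sub_le _ _).trans (by
        have := j.2
        simp only [natDegree_one, natDegree_pow, natDegree_X, mul_one, zero_le, sup_of_le_right,
          ex]
        nlinarith)).trans (Nat.mul_le_mul_right _ (by simpa using card_le_univ s)))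
    have h2 : n * ((n + 1) * (k + 1)) + (n + 1) ^ 2 * k ^ 2 ≤ (n + 1) ^ 2 * (k + 1) ^ 2 := by
      nlinarith [Nat.zero_le (n * k), Nat.zero_le (n * n * k)]
    rw [uP_succ]
    exact natDegree_add_le_of_degree_le
      (natDegree_mul_le.trans ((add_le_add (h1 _) (ih _)).trans h2))
      (natDegree_sum_le_of_forall_le _ _ fun i _ =>
        natDegree_mul_le.trans ((add_le_add (h1 _) (ih _)).trans h2))

lemma exists_uP (φ : Formula F n) (hφ : φ.poly ≠ 0) :
    ∃ k ≤ n * (φ.size + 1) ^ 2 + (φ.size + 1), uP k φ.poly ≠ 0 := by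
  let L := FractionRing F[X]
  let w : L := algebraMap F[X] L X
  have inj := IsFractionRing.injective F[X] L
  have hw0 : w ≠ 0 := (map_ne_zero_iff _ inj).2 X_ne_zero
  have h1 : ∀ k : ℕ, w ^ k = 1 → k = 0 := fun k hk => by
    have : (X ^ k : F[X]) = 1 := inj (by simpa using hk)
    simpa using congrArg natDegree this
  have hw : Function.Injective fun m : ℤ => w ^ m := by
    intro a b e
    have : w ^ (a - b) = 1 := by
      rw [zpow_sub₀ hw0, show w ^ a = w ^ b from e, div_self (zpow_ne_zero _ hw0)]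
    obtain ⟨k, hk | hk⟩ := Int.eq_nat_or_neg (a - b) <;> rw [hk] at this <;>
      have := h1 k (by simpa using this) <;> omega
  have ef : ∀ k (i : Fin n), (fac w i).eval ((w ^ (n + 1)) ^ k) =
      algebraMap F[X] L (1 - X ^ ex n k i) := by
    intro k i
    rw [fac, eval_sub, eval_one, eval_mul, eval_C, eval_X, map_sub, map_one, map_pow, ex]
    simp only [w]
    ring
  obtain ⟨k, hk, h⟩ := formula_core hw0 hw φ hφ
    (fun k => (IsScalarTower.toAlgHom F F[X] L).toLinearMap ∘ₗ uP k)
    (fun h => by simp [uP, IsScalarTower.algebraMap_apply F F[X] L])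
    (fun k h => by simp [uP_succ, Dl, Dli, eval_prod, ef])
  exact ⟨k, hk, fun e => h (by simp [e])⟩

/-- the inverse of `1 - X ^ m` -/
noncomputable def psi (m : ℕ) : PowerSeries F := PowerSeries.mk fun e => if m ∣ e then 1 else 0

lemma psi_inv {m : ℕ} (hm : 0 < m) : (1 - PowerSeries.X ^ m) * psi m = (1 : PowerSeries F) := by
  ext e
  rw [sub_mul, one_mul, map_sub, PowerSeries.coeff_X_pow_mul', PowerSeries.coeff_one]
  simp only [psi, PowerSeries.coeff_mk]
  by_cases h : m ≤ e
  · rw [if_pos h, if_neg (show e ≠ 0 by omega)]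
    simp [Nat.dvd_sub_iff_left h dvd_rfl]
  · rw [if_neg h, sub_zero]
    exact if_congr ⟨fun h' => Nat.eq_zero_of_dvd_of_lt h' (by omega), fun h' => h' ▸ dvd_zero m⟩
      rfl rfl

/-- the power series version of the recursion -/
noncomputable def uS : ℕ → FreeAlgebra F (Fin n) → PowerSeries F
  | 0, h => PowerSeries.C (algebraMapInv h)
  | k + 1, h => uS k h + ∑ i : Fin n, psi (ex n k i) * uS k (dq i h)

lemma uP_eq (k : ℕ) : ∃ E : PowerSeries F, ∀ h : FreeAlgebra F (Fin n),
    (uP k h : PowerSeries F) = E * uS k h := by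
  induction k with
  | zero => exact ⟨1, fun h => by simp [uP, uS]⟩
  | succ k ih =>
    obtain ⟨E, hE⟩ := ih
    refine ⟨(∏ i : Fin n, (1 - PowerSeries.X ^ ex n k i)) * E, fun h => ?_⟩
    rw [uP_succ, ← coeToPowerSeries.ringHom_apply]
    simp only [map_add, map_mul, map_sum, map_prod, map_sub, map_one, map_pow,
      coeToPowerSeries.ringHom_apply, coe_X, hE, uS, mul_add, mul_sum, mul_assoc]
    congr 1
    refine sum_congr rfl fun i _ => ?_
    rw [← mul_prod_erase univ _ (mem_univ i)]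
    linear_combination (-(∏ j ∈ univ.erase i, (1 - PowerSeries.X ^ ex n k j : PowerSeries F)) *
      E * uS k (dq i h)) * psi_inv (F := F) (show 0 < ex n k i from Nat.succ_pos _)

lemma uS_eq (k : ℕ) (h : FreeAlgebra F (Fin n)) : uS k h = PowerSeries.C (algebraMapInv h) +
    ∑ i : Fin n, ∑ j ∈ range k, psi (ex n j i) * uS j (dq i h) := by
  induction k with
  | zero => simp [uS]
  | succ k ih => simp only [sum_range_succ, sum_add_distrib, ← add_assoc, ← ih, uS]

/-- the positions of the ones -/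
def bit (n D i r c : ℕ) : Prop :=
  c / (D + 1) < r / (D + 1) ∧ c % (D + 1) ≤ r % (D + 1) ∧
    ex n (c / (D + 1)) i ∣ r % (D + 1) - c % (D + 1)

instance (n D i r c : ℕ) : Decidable (bit n D i r c) := by unfold bit; infer_instance

/-- the matrices -/
def mats (F : Type) [Field F] (n K D : ℕ) (i : Fin n) :
    Matrix (Fin ((K + 1) * (D + 1))) (Fin ((K + 1) * (D + 1))) F :=
  fun r c => if bit n D i r c then 1 else 0

/-- the tuple -/
def tup (F : Type) [Field F] (n K D : ℕ) : Tuple F n := ⟨(K + 1) * (D + 1), mats F n K D⟩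

lemma lift_tup (K D : ℕ) (h : FreeAlgebra F (Fin n)) (r : Fin ((K + 1) * (D + 1))) :
    (lift F (mats F n K D) h *ᵥ fun c => if (c : ℕ) % (D + 1) = 0 then 1 else 0) r =
      PowerSeries.coeff (r % (D + 1)) (uS (r / (D + 1)) h) := by
  induction h using dq_induction generalizing r with
  | h0 =>
    have : ∀ k, uS k (0 : FreeAlgebra F (Fin n)) = 0 := fun k => by
      induction k <;> simp [uS, *]
    simp [this]
  | hs v ih =>
    rw [uS_eq]
    conv_lhs => rw [decomp v]
    simp only [map_add, map_sum, map_mul, AlgHom.commutes, lift_ι_apply, add_mulVec, sum_mulVec,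
      ← mulVec_mulVec, Pi.add_apply, Finset.sum_apply, PowerSeries.coeff_C]
    congr 1
    · simp [Algebra.algebraMap_eq_smul_one, smul_mulVec]
    refine sum_congr rfl fun i _ => ?_
    have hr : (r : ℕ) / (D + 1) < K + 1 := (Nat.div_lt_iff_lt_mul (by omega)).2 r.2
    have hr' : (r : ℕ) % (D + 1) < D + 1 := Nat.mod_lt _ (by omega)
    rw [mulVec, dotProduct]
    simp only [ih]
    refine (finProdFinEquiv.sum_comp _).symm.trans ?_
    have e1 : ∀ (j : ℕ) (b : Fin (D + 1)), ((b : ℕ) + (D + 1) * j) / (D + 1) = j := fun j b => by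
      rw [Nat.add_mul_div_left _ _ (by omega), Nat.div_eq_of_lt b.2, zero_add]
    have e2 : ∀ (j : ℕ) (b : Fin (D + 1)), ((b : ℕ) + (D + 1) * j) % (D + 1) = b := fun j b => by
      rw [Nat.add_mul_mod_self_left, Nat.mod_eq_of_lt b.2]
    simp only [Fintype.sum_prod_type, mats, bit, finProdFinEquiv_apply_val, e1, e2]
    generalize (r : ℕ) / (D + 1) = k at hr ⊢
    generalize (r : ℕ) % (D + 1) = a at hr' ⊢
    rw [Fin.sum_univ_eq_sum_range (fun j => ∑ b : Fin (D + 1), (if j < k ∧ b ≤ a ∧ ex n j i ∣ a - b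
      then 1 else 0) * PowerSeries.coeff b (uS j (dq i v)))]
    rw [← sum_subset (range_mono hr.le) (fun j _ hj => by simp [mem_range.not.1 hj])]
    refine sum_congr rfl fun j hj => ?_
    rw [Fin.sum_univ_eq_sum_range (fun b => (if j < k ∧ b ≤ a ∧ ex n j i ∣ a - b
      then 1 else 0) * PowerSeries.coeff b (uS j (dq i v))), mul_comm, PowerSeries.coeff_mul,
      Nat.sum_antidiagonal_eq_sum_range_succ_mk,
      ← sum_subset (range_mono (Nat.succ_le_of_lt hr')) (fun b _ hb => by
        rw [if_neg (fun h => hb (mem_range.2 (by omega))), zero_mul])]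
    refine sum_congr rfl fun b hb => ?_
    simp [psi, mem_range.1 hj, Nat.lt_succ_iff.1 (mem_range.1 hb), mul_comm]

theorem tup_hits (s K : ℕ) (hK : n * (s + 1) ^ 2 + (s + 1) ≤ K) :
    IsHittingSet n s [tup F n K ((n + 1) ^ 2 * K ^ 2)] := by
  intro φ hs hφ
  refine ⟨_, List.mem_singleton_self _, fun h0 => ?_⟩
  obtain ⟨k, hk, h⟩ := exists_uP φ hφ
  have hkK : k ≤ K := (hk.trans (by gcongr)).trans hK
  obtain ⟨E, hE⟩ := uP_eq (F := F) (n := n) k
  set D := (n + 1) ^ 2 * K ^ 2 with hD
  replace h0 : lift F (mats F n K D) φ.poly = 0 := h0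
  have h1 : PowerSeries.X ^ (D + 1) ∣ uS k φ.poly := by
    refine PowerSeries.X_pow_dvd_iff.2 fun a ha => ?_
    have := lift_tup K D φ.poly (finProdFinEquiv (⟨k, by omega⟩, ⟨a, ha⟩))
    rw [h0, finProdFinEquiv_apply_val, Nat.add_mul_div_left _ _ (by omega), Nat.div_eq_of_lt ha,
      zero_add, Nat.add_mul_mod_self_left, Nat.mod_eq_of_lt ha] at this
    simpa using this.symm
  have h2 := PowerSeries.X_pow_dvd_iff.1 (hE _ ▸ h1.mul_left E)
  refine h (Polynomial.ext fun a => ?_)
  by_cases ha : a < D + 1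
  · simpa using h2 a ha
  · refine coeff_eq_zero_of_natDegree_lt ((natDegree_uP k _).trans_lt ?_)
    have : (n + 1) ^ 2 * k ^ 2 ≤ D := by rw [hD]; gcongr
    omega

end Vale.Agent.P314
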